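import Vale.Agent.P361.LRO.Defs

/-!
P361 LRO: interface statements of the top-level blocks (note 9886), as `Prop`s.
-/

namespace Vale.Agent.P361.LRO

open Finset Matrix Filter Topology

noncomputable section

/-- Bootstrap hypothesis `B(h0)`: all densities are at most `η` for all profiles of the family. -/
def BH (n : ℕ) [NeZero n] (β lam η h0 : ℝ) : Prop :=
  ∀ h : Tor n → ℝ, Fam n h0 lam h → ∀ x, rho (edges n) β h x ≤ η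

/-- Deficit operator expectation `(4/|b|²) ∑_{x<y in b} h_xy` (as half of the sum over ordered
pairs). -/
def Db {V : Type} [Fintype V] [DecidableEq V] (L : List (V × V)) (β : ℝ) (h : V → ℝ)
    (b : Finset V) : ℝ :=
  4 / (b.card : ℝ) ^ 2 * ((1 / 2) * ∑ x ∈ b, ∑ y ∈ b, gib L β h (hM x y))

/-- Block (6): stiffness of the `w`-blocks. `c3` is absolute, `A` is arbitrary. (`∃ᶠ`: any
convenient infinite set of Trotter numbers, e.g. multiples of the number of windows.) -/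
def KappaStmt : Prop :=
  ∃ c3 : ℝ, 0 < c3 ∧ ∀ A : ℝ, 0 < A → ∃ β0 : ℝ, ∀ β : ℝ, β0 ≤ β → ∃ n0 : ℕ, ∀ (n : ℕ) [NeZero n],
    n0 ≤ n → Odd n → ∀ (a : ℕ), β ^ (7 / 20 : ℝ) ≤ (3 : ℝ) ^ a → (3 : ℝ) ^ a ≤ 3 * β ^ (7 / 20 : ℝ) →
    ∀ h0 : ℝ, (n : ℝ) ^ (-(1 / 4) : ℝ) ≤ h0 → h0 ≤ 1 →
    BH n β (β ^ (-(9 / 10) : ℝ)) (β ^ (-(1 / 100) : ℝ)) h0 →
    ∀ h : Tor n → ℝ, Fam n h0 (β ^ (-(9 / 10) : ℝ)) h → ∀ x : Tor n,
      ∃ᶠ N : ℕ in atTop, c3 * (A * β ^ (1 / 100 : ℝ)) ≤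
        kap (edges n) β N h (A * β ^ (1 / 100 : ℝ)) (cube n x (3 ^ a))

/-- Block (1): block twist (`∃ᶠ` is enough because `kap` converges as `N → ∞`). -/
def TwistStmt : Prop :=
  ∃ C : ℝ, 0 < C ∧ ∀ (V : Type) [Fintype V] [DecidableEq V] (L : List (V × V)) (β : ℝ) (h : V → ℝ) (K κ : ℝ)
    (b : Finset V), 0 < β → (∀ x, 0 < h x) → 1 ≤ K → 0 < κ → b.Nonempty →
    (∃ᶠ N : ℕ in atTop, κ ≤ kap L β N h K b) →
    (∑ x ∈ b, rho L β h x) / b.card ≤ C * (1 + K) ^ 4 * Db L β h b + C / κ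

/-- Block (7): energy. `Q = cube n x (w * m)` is tiled by the `m³` cubes
`x + w • y + [0, w)³`, `y ∈ [0, m)³`. -/
def EnergyStmt : Prop :=
  ∃ C : ℝ, ∀ (n : ℕ) [NeZero n] (β : ℝ) (h : Tor n → ℝ) (x : Tor n) (w m : ℕ), 0 < β →
    (∀ x, 0 < h x) → 1 ≤ w → 1 ≤ m → 3 * (w * m) ≤ n →
    (∑ y : Fin 3 → Fin m, Db (edges n) β h (cube n (x + fun i => ((w * (y i : ℕ) : ℕ) : ZMod n)) w))
      / (m : ℝ) ^ 3 ≤ C * (w : ℝ) ^ 2 * (1 / β + 1 / ((w : ℝ) * m))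

/-- Block (8): Lee-Yang regularity, `f = 1 / M - 1`, `M = 1 - 2 ρ`. -/
def RegStmt : Prop :=
  ∀ (V : Type) [Fintype V] [DecidableEq V] (L : List (V × V)) (β : ℝ) (h h' : V → ℝ) (s : ℝ),
    0 < β → (∀ x, 0 < h x) → (∀ x, 0 < h' x) → 0 ≤ s → 3 * s < Real.pi / 2 →
    (∀ x, |Real.log (h x) - Real.log (h' x)| ≤ s) → ∀ z,
    0 < 1 - 2 * rho L β h z ∧
    1 / (1 - 2 * rho L β h' z) - 1 ≤ 2 * (1 / (1 - 2 * rho L β h z) - 1) + 9 / 2 * s ^ 2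

/-- Continuity in the fields (finite volume). -/
def ContStmt : Prop :=
  ∀ (V : Type) [Fintype V] [DecidableEq V] (L : List (V × V)) (β : ℝ) (z : V),
    Continuous fun h : V → ℝ => rho L β h z

/-- The start of the bootstrap, `h ≡ 1`. -/
def StartStmt : Prop :=
  ∀ (n : ℕ) [NeZero n] (β : ℝ) (x : Tor n), 0 < β →
    rho (edges n) β (fun _ => 1) x ≤ Real.log 2 / β

/-- Translation covariance. -/
def TransStmt : Prop :=
  ∀ (n : ℕ) [NeZero n] (β : ℝ) (h : Tor n → ℝ) (x a : Tor n),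
    rho (edges n) β (fun y => h (y + a)) x = rho (edges n) β h (x + a)

/-- Output of the bootstrap. -/
def BootStmt : Prop :=
  ∃ β0 : ℝ, ∀ β : ℝ, β0 ≤ β → ∃ n0 : ℕ, ∀ (n : ℕ) [NeZero n], n0 ≤ n → Odd n →
    ∀ h : ℝ, (n : ℝ) ^ (-(1 / 4) : ℝ) ≤ h → h ≤ 1 →
      ∀ x : Tor n, rho (edges n) β (fun _ => h) x ≤ β ^ (-(1 / 100) : ℝ)

end

end Vale.Agent.P361.LRO
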