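import Vale.Agent.P361.LRO.Top.Iface
import Vale.Agent.P361.LRO.Step
import Vale.Agent.P361.LRO.Fin.Boot

/-!
P361, low-temperature order: the bootstrap from the interface statements.
-/

namespace Vale.Agent.P361.LRO

open Filter Finset Matrix

noncomputable section

theorem Db_eq_Dst {V : Type} [Fintype V] [DecidableEq V] (L : List (V × V)) (β : ℝ) (h : V → ℝ)
    (b : Finset V) : Db L β h b = Dst L β h b := by
  unfold Db Dst
  ring

theorem pTwist_of (h : TwistStmt) : PTwist := by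
  obtain ⟨C, hC, H⟩ := h
  refine ⟨C, hC, ?_⟩
  intro V _ _ L _ β hβ h hh b K κ hb hK _ hκ hN
  have h1 := H V L β h K κ b hβ (fun x => (hh x).1) (by linarith) hκ hb hN
  rw [Db_eq_Dst] at h1
  linarith

theorem pEnergy_of (h : EnergyStmt) : PEnergy 2 := by
  obtain ⟨C, H⟩ := h
  refine ⟨max C 1, lt_max_of_lt_right one_pos, ?_⟩
  intro β hβ n _ w m hw hm hwm h hh x0
  have hm' : (0 : ℝ) < (m : ℝ) ^ 3 := by positivity
  have h1 := H n β h x0 w m (by linarith) (fun x => (hh x).1) hw hm hwm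
  rw [div_le_iff₀ hm'] at h1
  simp only [Db_eq_Dst] at h1
  have h2 : C * (w : ℝ) ^ 2 * (1 / β + 1 / ((w : ℝ) * m)) ≤
      max C 1 * (w : ℝ) ^ 2 * (1 / β + 1 / ((w : ℝ) * m)) := by
    rw [mul_assoc, mul_assoc]
    refine mul_le_mul_of_nonneg_right (le_max_left _ _) ?_
    have : (0 : ℝ) < β := by linarith
    positivity
  have h3 := mul_le_mul_of_nonneg_right h2 hm'.le
  linarith

theorem pHarn_of (h : RegStmt) : PHarn := by
  intro V _ _ L _ β hβ h1 h2 hh1 hh2 d hd hd3 hl z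
  exact h V L β h1 h2 d hβ hh1 hh2 hd hd3 hl z

theorem pTrans_of (h : TransStmt) : PTrans := by
  intro n _ β f v x
  exact h n β f x v

/-! ### The parameters -/

/-- the scale exponent: `β ^ (7/20) ≤ 3 ^ a ≤ 3 β ^ (7/20)` -/
def aS (β : ℝ) : ℕ := Nat.clog 3 ⌈β ^ (7 / 20 : ℝ)⌉₊

/-- the side of the blocks -/
def wS (β : ℝ) : ℕ := 3 ^ aS β

/-- the number of the blocks -/
def mS (β : ℝ) : ℕ := ⌈β ^ (9 / 20 : ℝ)⌉₊

/-- `1 / L₀` -/
def lamS (β : ℝ) : ℝ := β ^ (-(9 / 10) : ℝ)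

theorem wS_ge (β : ℝ) : β ^ (7 / 20 : ℝ) ≤ wS β := by
  refine (Nat.le_ceil _).trans ?_
  exact_mod_cast Nat.le_pow_clog (by norm_num) _

theorem wS_le {β : ℝ} (hβ : 1 < β) : (wS β : ℝ) ≤ 3 * β ^ (7 / 20 : ℝ) := by
  have h1 : 1 < β ^ (7 / 20 : ℝ) := Real.one_lt_rpow hβ (by norm_num)
  have h2 : 1 < ⌈β ^ (7 / 20 : ℝ)⌉₊ := by
    rw [Nat.lt_ceil]
    exact_mod_cast h1
  have h3 := Nat.pow_pred_clog_lt_self (b := 3) (by norm_num) h2
  have h4 : ((3 ^ (Nat.clog 3 ⌈β ^ (7 / 20 : ℝ)⌉₊).pred : ℕ) : ℝ) < β ^ (7 / 20 : ℝ) := by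
    rwa [← Nat.lt_ceil]
  have h5 : 0 < Nat.clog 3 ⌈β ^ (7 / 20 : ℝ)⌉₊ := Nat.clog_pos (by norm_num) h2
  unfold wS aS
  obtain ⟨k, hk⟩ := Nat.exists_eq_succ_of_ne_zero h5.ne'
  rw [hk] at h4 ⊢
  rw [Nat.pred_succ] at h4
  push_cast at h4 ⊢
  rw [pow_succ]
  linarith

theorem par_S : Par 2 wS mS lamS := by
  intro A C hA hC
  have hlim : ∀ (a : ℝ), 0 < a → ∀ B : ℝ, ∀ᶠ β : ℝ in atTop, B ≤ β ^ a := fun a ha B =>
    (tendsto_rpow_atTop ha).eventually_ge_atTop B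
  filter_upwards [hlim (1 / 100) (by norm_num) (10 / A), hlim (1 / 100) (by norm_num) (1 / A),
    hlim (26 / 25) (by norm_num) A,
    hlim (1 / 20) (by norm_num) (32 * (16 * A ^ 4 * (C * (9 * 2)))),
    hlim (19 / 100) (by norm_num) (7 * (9 / 2 * 18 ^ 2)),
    hlim (1 / 10) (by norm_num) 54,
    eventually_gt_atTop (1 : ℝ)] with β h1 h1' h2 h3 h4 h5 hβ1
  have hβ : 0 < β := by linarith
  have hw1 := wS_ge β
  have hw2 := wS_le hβ1
  have hp : ∀ a : ℝ, 0 < β ^ a := fun a => Real.rpow_pos_of_pos hβ a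
  have hwpos : (0 : ℝ) < wS β := (hp _).trans_le hw1
  have hm1 : β ^ (9 / 20 : ℝ) ≤ mS β := Nat.le_ceil _
  have hm2 : (mS β : ℝ) ≤ 2 * β ^ (9 / 20 : ℝ) := by
    have h6 : (mS β : ℝ) < β ^ (9 / 20 : ℝ) + 1 := Nat.ceil_lt_add_one (hp _).le
    have h7 : 1 < β ^ (9 / 20 : ℝ) := Real.one_lt_rpow hβ1 (by norm_num)
    linarith
  have hmpos : (0 : ℝ) < mS β := (hp _).trans_le hm1
  have hmul : ∀ a b : ℝ, β ^ a * β ^ b = β ^ (a + b) := fun a b => (Real.rpow_add hβ a b).symm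
  have hl1 : β ^ (4 / 5 : ℝ) ≤ wS β * mS β := by
    have h6 := mul_le_mul hw1 hm1 (hp _).le hwpos.le
    rw [hmul] at h6
    norm_num at h6 ⊢
    exact h6
  have hl2 : (wS β : ℝ) * mS β ≤ 6 * β ^ (4 / 5 : ℝ) := by
    have h6 := mul_le_mul hw2 hm2 hmpos.le (by positivity)
    have h7 : 3 * β ^ (7 / 20 : ℝ) * (2 * β ^ (9 / 20 : ℝ)) = 6 * β ^ (4 / 5 : ℝ) := by
      have h8 := hmul (7 / 20) (9 / 20)
      norm_num at h8
      linear_combination 6 * h8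
    rwa [h7] at h6
  have hη : etaB β = (β ^ (1 / 100 : ℝ))⁻¹ := by
    unfold etaB
    rw [Real.rpow_neg hβ.le]
  have hAη : A / etaB β = A * β ^ (1 / 100 : ℝ) := by
    rw [hη, div_inv_eq_mul]
  have hlam : lamS β = (β ^ (9 / 10 : ℝ))⁻¹ := by
    unfold lamS
    rw [Real.rpow_neg hβ.le]
  refine ⟨by exact_mod_cast hwpos, by exact_mod_cast hmpos, (hp _).le, ?_, ?_, ?_, ?_, ?_⟩
  · rw [hAη]
    rw [div_le_iff₀ hA] at h1
    linarith
  · rw [hAη]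
    have h6 : (β ^ (7 / 20 : ℝ)) ^ 3 ≤ (wS β : ℝ) ^ 3 := pow_le_pow_left₀ (hp _).le hw1 3
    refine le_trans ?_ h6
    rw [← Real.rpow_natCast, ← Real.rpow_mul hβ.le]
    have h7 : β ^ (7 / 20 * ((3 : ℕ) : ℝ)) = β ^ (26 / 25 : ℝ) * β ^ (1 / 100 : ℝ) := by
      rw [hmul]
      norm_num
    rw [h7]
    exact mul_le_mul_of_nonneg_right h2 (hp _).le
  · rw [hAη]
    have e1 : 1 + A * β ^ (1 / 100 : ℝ) ≤ 2 * (A * β ^ (1 / 100 : ℝ)) := by
      rw [div_le_iff₀ hA] at h1'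
      linarith
    have e2 : (1 + A * β ^ (1 / 100 : ℝ)) ^ 4 ≤ 16 * A ^ 4 * β ^ (1 / 25 : ℝ) := by
      refine (pow_le_pow_left₀ (by positivity) e1 4).trans (le_of_eq ?_)
      rw [mul_pow, mul_pow, ← Real.rpow_natCast (β ^ (1 / 100 : ℝ)), ← Real.rpow_mul hβ.le]
      norm_num
      ring
    have e3 : (wS β : ℝ) ^ 2 ≤ 9 * β ^ (7 / 10 : ℝ) := by
      refine (pow_le_pow_left₀ hwpos.le hw2 2).trans (le_of_eq ?_)
      rw [mul_pow, ← Real.rpow_natCast (β ^ (7 / 20 : ℝ)), ← Real.rpow_mul hβ.le]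
      norm_num
    have e4 : 1 / β + 1 / ((wS β : ℝ) * mS β) ≤ 2 * (β ^ (4 / 5 : ℝ))⁻¹ := by
      have e5 : 1 / ((wS β : ℝ) * mS β) ≤ (β ^ (4 / 5 : ℝ))⁻¹ := by
        rw [one_div]
        exact inv_anti₀ (hp _) hl1
      have e6 : 1 / β ≤ (β ^ (4 / 5 : ℝ))⁻¹ := by
        rw [one_div]
        refine inv_anti₀ (hp _) ?_
        conv_rhs => rw [← Real.rpow_one β]
        exact Real.rpow_le_rpow_of_exponent_le hβ1.le (by norm_num)
      linarith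
    have e7 : C * (wS β : ℝ) ^ 2 * (1 / β + 1 / ((wS β : ℝ) * mS β)) ≤
        C * (9 * β ^ (7 / 10 : ℝ)) * (2 * (β ^ (4 / 5 : ℝ))⁻¹) := by
      refine mul_le_mul (mul_le_mul_of_nonneg_left e3 hC.le) e4 (by positivity) (by positivity)
    have e8 : (1 + A * β ^ (1 / 100 : ℝ)) ^ 4 *
        (C * (wS β : ℝ) ^ 2 * (1 / β + 1 / ((wS β : ℝ) * mS β))) ≤
        16 * A ^ 4 * β ^ (1 / 25 : ℝ) * (C * (9 * β ^ (7 / 10 : ℝ)) *
          (2 * (β ^ (4 / 5 : ℝ))⁻¹)) :=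
      mul_le_mul e2 e7 (by positivity) (by positivity)
    refine e8.trans ?_
    have e9 : β ^ (4 / 5 : ℝ) = β ^ (1 / 25 : ℝ) * β ^ (7 / 10 : ℝ) * (β ^ (1 / 20 : ℝ) *
        β ^ (1 / 100 : ℝ)) := by
      rw [hmul, hmul, hmul]
      norm_num
    rw [hη, e9]
    have q1 := hp (1 / 25)
    have q2 := hp (7 / 10)
    have q3 := hp (1 / 20)
    have q4 := hp (1 / 100)
    have e10 : 16 * A ^ 4 * β ^ (1 / 25 : ℝ) * (C * (9 * β ^ (7 / 10 : ℝ)) *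
        (2 * (β ^ (1 / 25 : ℝ) * β ^ (7 / 10 : ℝ) * (β ^ (1 / 20 : ℝ) *
          β ^ (1 / 100 : ℝ)))⁻¹)) =
        (16 * A ^ 4 * (C * (9 * 2))) / (β ^ (1 / 20 : ℝ) * β ^ (1 / 100 : ℝ)) := by
      field_simp
    rw [e10, div_le_div_iff₀ (by positivity) (by norm_num)]
    have e11 : (β ^ (1 / 100 : ℝ))⁻¹ * (β ^ (1 / 20 : ℝ) * β ^ (1 / 100 : ℝ)) =
        β ^ (1 / 20 : ℝ) := by
      field_simp
    rw [e11]
    linarith
  · have e1 : (wS β : ℝ) * mS β * lamS β ≤ 6 * (β ^ (1 / 10 : ℝ))⁻¹ := by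
      have e2 : (wS β : ℝ) * mS β * lamS β ≤ 6 * β ^ (4 / 5 : ℝ) * lamS β :=
        mul_le_mul_of_nonneg_right hl2 (hp _).le
      refine e2.trans (le_of_eq ?_)
      rw [hlam]
      have e3 : β ^ (9 / 10 : ℝ) = β ^ (4 / 5 : ℝ) * β ^ (1 / 10 : ℝ) := by
        rw [hmul]
        norm_num
      rw [e3]
      have q1 := hp (4 / 5)
      have q2 := hp (1 / 10)
      field_simp
    have e0 : 0 ≤ (wS β : ℝ) * mS β * lamS β := by
      have := (hp (-(9 / 10))).le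
      unfold lamS
      positivity
    have e2 : (3 * (wS β * mS β) * lamS β) ^ 2 ≤ (18 * (β ^ (1 / 10 : ℝ))⁻¹) ^ 2 := by
      refine pow_le_pow_left₀ (by linarith) (by linarith) 2
    have e3 : (18 * (β ^ (1 / 10 : ℝ))⁻¹) ^ 2 = 18 ^ 2 * (β ^ (1 / 5 : ℝ))⁻¹ := by
      rw [mul_pow, inv_pow, ← Real.rpow_natCast (β ^ (1 / 10 : ℝ)), ← Real.rpow_mul hβ.le]
      norm_num
    rw [e3] at e2
    have e4 : β ^ (1 / 5 : ℝ) = β ^ (19 / 100 : ℝ) * β ^ (1 / 100 : ℝ) := by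
      rw [hmul]
      norm_num
    rw [e4] at e2
    rw [hη]
    have q1 := hp (19 / 100)
    have q2 := hp (1 / 100)
    refine (mul_le_mul_of_nonneg_left e2 (by norm_num)).trans ?_
    rw [mul_inv]
    have e5 : 9 / 2 * (18 ^ 2 * ((β ^ (19 / 100 : ℝ))⁻¹ * (β ^ (1 / 100 : ℝ))⁻¹)) =
        (9 / 2 * 18 ^ 2) / β ^ (19 / 100 : ℝ) * (β ^ (1 / 100 : ℝ))⁻¹ := by
      field_simp
    rw [e5]
    have e6 : (9 / 2 * 18 ^ 2) / β ^ (19 / 100 : ℝ) ≤ 1 / 7 := by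
      rw [div_le_div_iff₀ q1 (by norm_num)]
      linarith
    calc _ ≤ 1 / 7 * (β ^ (1 / 100 : ℝ))⁻¹ := mul_le_mul_of_nonneg_right e6 (by positivity)
      _ = _ := by ring
  · have e1 : (wS β : ℝ) * mS β * lamS β ≤ 6 * (β ^ (1 / 10 : ℝ))⁻¹ := by
      have e2 : (wS β : ℝ) * mS β * lamS β ≤ 6 * β ^ (4 / 5 : ℝ) * lamS β :=
        mul_le_mul_of_nonneg_right hl2 (hp _).le
      refine e2.trans (le_of_eq ?_)
      rw [hlam]
      have e3 : β ^ (9 / 10 : ℝ) = β ^ (4 / 5 : ℝ) * β ^ (1 / 10 : ℝ) := by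
        rw [hmul]
        norm_num
      rw [e3]
      have q1 := hp (4 / 5)
      have q2 := hp (1 / 10)
      field_simp
    have e2 : (β ^ (1 / 10 : ℝ))⁻¹ ≤ (54 : ℝ)⁻¹ := inv_anti₀ (by norm_num) h5
    have e3 := Real.pi_gt_three
    nlinarith

/-! ### The bootstrap -/

theorem pSix_of (h : KappaStmt) : PSix wS lamS := by
  obtain ⟨c, hc, H⟩ := h
  refine ⟨c, hc, fun A hA => ?_⟩
  obtain ⟨β0, H⟩ := H A hA
  filter_upwards [eventually_ge_atTop β0, eventually_gt_atTop (1 : ℝ)] with β hβ0 hβ1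
  obtain ⟨n0, H⟩ := H β hβ0
  filter_upwards [eventually_ge_atTop n0] with n hn
  intro hodd _ h0 hh0 hh01 hB h hh x
  have hβ : 0 < β := by linarith
  have hAη : A / etaB β = A * β ^ (1 / 100 : ℝ) := by
    unfold etaB
    rw [Real.rpow_neg hβ.le, div_inv_eq_mul]
  have e1 : (wS β : ℝ) = (3 : ℝ) ^ aS β := by
    unfold wS
    push_cast
    rfl
  have h1 := H n hn hodd (aS β) (e1 ▸ wS_ge β) (e1 ▸ wS_le hβ1) h0 hh0 hh01
    (fun h' hh' x' => hB h' hh' x') h hh x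
  rw [hAη]
  exact h1

/-- **The bootstrap, assembled** (from the weakest forms of the blocks). -/
theorem bootStmt_ofP (h6 : KappaStmt) (h1 : PTwist) (h7 : EnergyStmt) (h8 : RegStmt)
    (hs : StartStmt) (ht : TransStmt) : BootStmt := by
  have hstep := step_of h1 (pEnergy_of h7) (pHarn_of h8) (pTrans_of ht) (pSix_of h6)
    par_S
  have hlog : ∀ᶠ β : ℝ in atTop, Real.log 2 / β ≤ β ^ (-(1 / 100) : ℝ) := by
    filter_upwards [eventually_ge_atTop (1 : ℝ)] with β hβ1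
    have hβ : 0 < β := by linarith
    have e1 : Real.log 2 / β ≤ 1 / β := by
      refine div_le_div_of_nonneg_right ?_ hβ.le
      linarith [Real.log_two_lt_d9]
    refine e1.trans ?_
    rw [one_div, ← Real.rpow_neg_one]
    exact Real.rpow_le_rpow_of_exponent_le hβ1 (by norm_num)
  obtain ⟨β0, H⟩ := eventually_atTop.1 (hstep.and (hlog.and (eventually_ge_atTop (1 : ℝ))))
  refine ⟨β0, fun β hβ0 => ?_⟩
  obtain ⟨hst, hlog, hβ1⟩ := H β hβ0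
  have hβ : 0 < β := by linarith
  obtain ⟨n0, Hn⟩ := eventually_atTop.1 hst
  refine ⟨n0, fun n _ hn hodd h hh hh1 x => ?_⟩
  have hn0 : (0 : ℝ) < n := by exact_mod_cast NeZero.pos n
  have ha0 : (0 : ℝ) < (n : ℝ) ^ (-(1 / 4) : ℝ) := Real.rpow_pos_of_pos hn0 _
  have hη := etaB_pos hβ
  have hlam : 0 ≤ lamS β := (Real.rpow_pos_of_pos hβ _).le
  have key := boot n (β := β) hη hlam ha0 (hh.trans hh1)
    (fun x => (hs n β x hβ).trans hlog)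
    (fun h0 hh0 hh01 hB => Hn n hn hodd h0 hh0 hh01 hB) (fun _ => h) ?_ x
  · have e1 : etaB β = β ^ (-(1 / 100) : ℝ) := rfl
    rw [← e1]
    linarith
  · refine ⟨fun _ => ⟨hh, hh1⟩, fun _ _ => ?_⟩
    have e2 : 1 ≤ Real.exp (lamS β) := Real.one_le_exp hlam
    have e3 : 0 < h := ha0.trans_le hh
    constructor <;> nlinarith

/-- **The bootstrap, assembled.** -/
theorem bootStmt_of (h6 : KappaStmt) (h1 : TwistStmt) (h7 : EnergyStmt) (h8 : RegStmt)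
    (hs : StartStmt) (ht : TransStmt) : BootStmt :=
  bootStmt_ofP h6 (pTwist_of h1) h7 h8 hs ht

end

end Vale.Agent.P361.LRO
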