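import Vale.Agent.P361.LRO.Fin.Base
import Vale.Agent.P361.LRO.Top.Iface

/-! Start of the bootstrap. -/

namespace Vale.Agent.P361.LRO

theorem startStmt : StartStmt := fun _ _ _ x hβ => Bs.base_rho hβ x

end Vale.Agent.P361.LRO
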