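import Vale.Agent.P361.LRO.Top.Iface

/-!
P361 LRO: translation covariance of the densities on the torus.
-/

namespace Vale.Agent.P361.LRO

open Finset Matrix

noncomputable section

namespace Trans

/-- The exponential commutes with a simultaneous permutation of rows and columns. -/
theorem exp_submatrix {ι : Type*} [Fintype ι] [DecidableEq ι] (E : ι ≃ ι) (M : Matrix ι ι ℝ) :
    NormedSpace.exp (M.submatrix E E) = (NormedSpace.exp M).submatrix E E := by
  let _ : NormedRing (Matrix ι ι ℝ) := Matrix.linftyOpNormedRing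
  let _ : NormedAlgebra ℝ (Matrix ι ι ℝ) := Matrix.linftyOpNormedAlgebra
  let _ : NormedAlgebra ℚ (Matrix ι ι ℝ) := NormedAlgebra.restrictScalars ℚ ℝ _
  have hc : Continuous (Matrix.reindexAlgEquiv ℝ ℝ E.symm) :=
    Continuous.matrix_reindex continuous_id _ _
  exact (NormedSpace.map_exp (Matrix.reindexAlgEquiv ℝ ℝ E.symm) hc M).symm

theorem trace_submatrix {ι : Type*} [Fintype ι] (E : ι ≃ ι) (M : Matrix ι ι ℝ) :
    (M.submatrix E E).trace = M.trace := by
  simp only [Matrix.trace, Matrix.diag_apply, Matrix.submatrix_apply]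
  exact Equiv.sum_comp E fun i => M i i

variable {V : Type} [Fintype V] [DecidableEq V]

/-- `σ ↦ σ ∘ e`. -/
def EE' (e : V ≃ V) : (V → Fin 2) ≃ (V → Fin 2) := e.symm.arrowCongr (Equiv.refl _)

omit [Fintype V] [DecidableEq V] in
theorem EE'_apply (e : V ≃ V) (σ : V → Fin 2) : EE' e σ = σ ∘ e := by
  funext v
  simp [EE']

theorem swapM_sub (e : V ≃ V) (x y : V) :
    (swapM x y).submatrix (EE' e) (EE' e) = swapM (e x) (e y) := by
  ext σ τ
  simp only [Matrix.submatrix_apply, swapM, Matrix.of_apply, EE'_apply]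
  have : σ ∘ e = (τ ∘ e) ∘ Equiv.swap x y ↔ σ = τ ∘ Equiv.swap (e x) (e y) := by
    constructor
    · intro h
      funext v
      have h1 := congrFun h (e.symm v)
      simp only [Function.comp_apply, Equiv.apply_symm_apply] at h1
      rw [h1, Function.comp_apply]
      congr 1
      rw [← e.injective.swap_apply, Equiv.apply_symm_apply]
    · rintro rfl
      funext v
      simp only [Function.comp_apply]
      rw [← e.injective.swap_apply]
  simp only [this]

omit [DecidableEq V] in
theorem szM_sub (e : V ≃ V) (x : V) :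
    (szM x).submatrix (EE' e) (EE' e) = szM (e x) := by
  ext σ τ
  simp only [Matrix.submatrix_apply, szM, Matrix.diagonal_apply, EmbeddingLike.apply_eq_iff_eq]
  simp only [EE'_apply, Function.comp_apply]

theorem hM_sub (e : V ≃ V) (x y : V) :
    (hM x y).submatrix (EE' e) (EE' e) = hM (e x) (e y) := by
  rw [hM, hM, ← swapM_sub e x y]
  ext σ τ
  simp [Matrix.submatrix_apply, Matrix.one_apply]

theorem ham_sub (e : V ≃ V) (L : List (V × V)) (h : V → ℝ)
    (hL : (L.map fun z => hM (e z.1) (e z.2)).sum = (L.map fun z => hM z.1 z.2).sum) :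
    (ham L (fun x => h (e x))).submatrix (EE' e) (EE' e) = ham L h := by
  have h1 : ∀ l : List (V × V), ((l.map fun z => hM z.1 z.2).sum).submatrix (EE' e) (EE' e)
      = (l.map fun z => hM (e z.1) (e z.2)).sum := by
    intro l
    induction l with
    | nil => rfl
    | cons z l ih =>
      rw [List.map_cons, List.sum_cons, List.map_cons, List.sum_cons, ← ih, ← hM_sub e]
      rfl
  have h2 : (∑ x, (h (e x) / 2) • szM x).submatrix (EE' e) (EE' e) = ∑ x, (h x / 2) • szM x := by
    rw [← Equiv.sum_comp e (fun x => (h x / 2) • szM x)]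
    ext σ τ
    simp only [Matrix.submatrix_apply, Matrix.sum_apply, Matrix.smul_apply]
    refine Finset.sum_congr rfl fun x _ => ?_
    rw [← szM_sub e x]
    rfl
  have h3 : ham L h = (L.map fun z => hM (e z.1) (e z.2)).sum - ∑ x, (h x / 2) • szM x := by
    rw [ham, hL]
  rw [h3, ← h1, ← h2]
  rfl

theorem rho_comp (e : V ≃ V) (L : List (V × V)) (β : ℝ) (h : V → ℝ) (x : V)
    (hL : (L.map fun z => hM (e z.1) (e z.2)).sum = (L.map fun z => hM z.1 z.2).sum) :
    rho L β (fun y => h (e y)) x = rho L β h (e x) := by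
  have hH := ham_sub e L h hL
  have hE : (NormedSpace.exp (-β • ham L (fun y => h (e y)))).submatrix (EE' e) (EE' e)
      = NormedSpace.exp (-β • ham L h) := by
    rw [← exp_submatrix, Matrix.submatrix_smul, Pi.smul_apply, Pi.smul_apply, hH]
  have hA : ((1 / 2 : ℝ) • (1 - szM x)).submatrix (EE' e) (EE' e)
      = (1 / 2 : ℝ) • (1 - szM (e x)) := by
    rw [← szM_sub e x]
    ext σ τ
    simp [Matrix.submatrix_apply, Matrix.one_apply]
  rw [rho, rho, gib, gib]
  congr 1
  · rw [← trace_submatrix (EE' e), ← Matrix.submatrix_mul_equiv _ _ _ (EE' e) _, hE, hA]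
  · rw [← trace_submatrix (EE' e), hE]

end Trans

theorem transStmt : TransStmt := by
  intro n _ β h x a
  refine Trans.rho_comp (Equiv.addRight a) (edges n) β h x ?_
  simp only [edges, List.map_map, Equiv.coe_addRight]
  rw [show ((fun z : Tor n × Tor n => hM (z.1 + a) (z.2 + a)) ∘
      fun z : Tor n × Fin 3 => (z.1, z.1 + Pi.single z.2 1))
      = fun z : Tor n × Fin 3 => hM (z.1 + a) (z.1 + Pi.single z.2 1 + a) from rfl,
    show ((fun z : Tor n × Tor n => hM z.1 z.2) ∘
      fun z : Tor n × Fin 3 => (z.1, z.1 + Pi.single z.2 1))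
      = fun z : Tor n × Fin 3 => hM z.1 (z.1 + Pi.single z.2 1) from rfl,
    Finset.sum_map_toList, Finset.sum_map_toList]
  refine Fintype.sum_equiv ((Equiv.addRight a).prodCongr (Equiv.refl (Fin 3))) _ _ fun z => ?_
  simp only [Equiv.prodCongr_apply, Prod.map, Equiv.coe_addRight, Equiv.refl_apply]
  rw [add_right_comm]

end

end Vale.Agent.P361.LRO
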