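import Vale.Agent.P361.LRO.Top.Iface

/-!
P361 LRO: continuity of the densities in the fields (finite volume).
-/

namespace Vale.Agent.P361.LRO

open Finset Matrix Filter Topology

noncomputable section

namespace Cont

variable {V : Type} [Fintype V] [DecidableEq V]

theorem continuous_exp {ι : Type*} [Fintype ι] [DecidableEq ι] :
    Continuous (NormedSpace.exp : Matrix ι ι ℝ → Matrix ι ι ℝ) := by
  let _ : NormedRing (Matrix ι ι ℝ) := Matrix.linftyOpNormedRing
  let _ : NormedAlgebra ℝ (Matrix ι ι ℝ) := Matrix.linftyOpNormedAlgebra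
  let _ : NormedAlgebra ℚ (Matrix ι ι ℝ) := NormedAlgebra.restrictScalars ℚ ℝ _
  exact NormedSpace.exp_continuous

theorem swapM_isSymm (x y : V) : (swapM x y).IsSymm := by
  ext σ τ
  simp only [Matrix.transpose_apply, swapM, Matrix.of_apply]
  have : τ = σ ∘ Equiv.swap x y ↔ σ = τ ∘ Equiv.swap x y := by
    constructor
    · rintro rfl
      funext a
      simp
    · rintro rfl
      funext a
      simp
  simp only [this]

omit [DecidableEq V] in
theorem szM_isSymm (x : V) : (szM x).IsSymm := Matrix.isSymm_diagonal _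

theorem hM_isSymm (x y : V) : (hM x y).IsSymm :=
  (Matrix.isSymm_one.sub (swapM_isSymm x y)).smul _

theorem ham_isSymm (L : List (V × V)) (h : V → ℝ) : (ham L h).IsSymm := by
  have h1 : ∀ l : List (V × V), ((l.map fun e => hM e.1 e.2).sum).IsSymm := by
    intro l
    induction l with
    | nil => simp only [List.map_nil, List.sum_nil]; exact Matrix.isSymm_zero
    | cons e l ih =>
      rw [List.map_cons, List.sum_cons]
      exact (hM_isSymm e.1 e.2).add ih
  have h2 : (∑ x, (h x / 2) • szM x).IsSymm := by
    rw [Matrix.IsSymm, Matrix.transpose_sum]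
    exact Finset.sum_congr rfl fun x _ => (szM_isSymm x).smul _
  exact (h1 L).sub h2

/-- The trace of the exponential of a real symmetric matrix is positive. -/
theorem trace_exp_pos {ι : Type*} [Fintype ι] [DecidableEq ι] [Nonempty ι] {S : Matrix ι ι ℝ}
    (hS : S.IsSymm) : 0 < (NormedSpace.exp S).trace := by
  set B : Matrix ι ι ℝ := NormedSpace.exp ((1 / 2 : ℝ) • S) with hB
  have hBs : Bᵀ = B := by
    rw [hB, ← Matrix.exp_transpose, Matrix.transpose_smul, hS]
  have hBB : NormedSpace.exp S = B * B := by
    rw [hB, ← Matrix.exp_add_of_commute _ _ (Commute.refl _), ← add_smul]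
    norm_num
  have hB0 : B ≠ 0 := by
    intro h0
    have hu : IsUnit B := Matrix.isUnit_exp _
    rw [h0] at hu
    exact not_isUnit_zero hu
  have htr : (NormedSpace.exp S).trace = ∑ i, ∑ j, B i j ^ 2 := by
    rw [hBB, Matrix.trace]
    refine Finset.sum_congr rfl fun i _ => ?_
    rw [Matrix.diag_apply, Matrix.mul_apply]
    refine Finset.sum_congr rfl fun j _ => ?_
    have : B j i = B i j := by
      conv_lhs => rw [← hBs]
      rfl
    rw [this, sq]
  rw [htr]
  have hne : ∃ i j, B i j ≠ 0 := by
    by_contra hcon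
    push Not at hcon
    exact hB0 (Matrix.ext hcon)
  obtain ⟨i, j, hij⟩ := hne
  refine Finset.sum_pos' (fun i _ => Finset.sum_nonneg fun j _ => sq_nonneg _)
    ⟨i, Finset.mem_univ _, ?_⟩
  exact Finset.sum_pos' (fun j _ => sq_nonneg _) ⟨j, Finset.mem_univ _, by positivity⟩

theorem continuous_ham (L : List (V × V)) : Continuous fun h : V → ℝ => ham L h := by
  unfold ham
  fun_prop

theorem continuous_gib (L : List (V × V)) (β : ℝ) (A : Matrix (V → Fin 2) (V → Fin 2) ℝ) :
    Continuous fun h : V → ℝ => gib L β h A := by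
  have hexp : Continuous fun h : V → ℝ => NormedSpace.exp (-β • ham L h) :=
    continuous_exp.comp ((continuous_ham L).const_smul (-β))
  unfold gib
  refine Continuous.div ?_ ?_ ?_
  · exact (hexp.mul continuous_const).matrix_trace
  · exact hexp.matrix_trace
  · intro h
    exact (trace_exp_pos ((ham_isSymm L h).smul (-β))).ne'

end Cont

theorem contStmt : ContStmt := fun _ _ _ L β _ => Cont.continuous_gib L β _

end

end Vale.Agent.P361.LRO
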